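import Vale.Agent.P216.V766.FK
import Vale.Agent.P216.E2L.LinF

/-!
# P216-V, (F-K): kernel data from the fibre geometry, compact fibres
-/

set_option linter.all false

open Set Finsupp

namespace Vale.Agent.P216.V766

open Sl PS H892 H923G

variable {M E E' : Type} [PseudoMetricSpace M] [PseudoMetricSpace E] [PseudoMetricSpace E']
variable {π : E → M} {X : ℝ → Set E} {O : ℝ → Set E'} {c r0 t T : ℝ}
  {φ : M → ℝ → E → E'} {ψ : M → ℝ → E' → E}

/-- **kernel data exist** -/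
theorem exists_KD (U : FibU π X O c r0 φ ψ) (hO : ∀ t, IsCompact (O t)) (ht : 0 < t)
    (hT : t + 4 * c ≤ T) {ε : ℝ} (hε : 0 < ε) (q : ℕ) : ∃ δ > 0, δ ≤ ε ∧
      ∃ (A : Type) (_ : Fintype A) (z : A → Ch ℝ E') (D : KD π (X T) (X t) ε δ q A),
        (∀ a v, D.ζ a v = mp (ψ v (t + c)) (z a)) ∧
        (∀ a, z a ∈ Sp ℝ (fun l => l.length = q + 1 ∧ SmL (O (t + c)) ε l)) ∧
        ∀ a, ∃ r, bd (z a) = single [] r :=
  exists_KD_of U (fun t r1 r _ h1 h2 => E2L.linF (hO t) h1 h2 q) ht hT hε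

end Vale.Agent.P216.V766
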