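import Vale.Agent.P216.V766.Geo
import Vale.Agent.P216.V651.Ch
import Vale.Agent.P216.H923G.KD

/-!
# P216-V, (F-K): kernel data from the fibre geometry
-/

set_option linter.all false

open Set Finsupp

namespace Vale.Agent.P216.V766

open Sl PS E2L D907 H923E H892 H923G

variable {M E E' : Type} [PseudoMetricSpace M] [PseudoMetricSpace E] [PseudoMetricSpace E']

/-! ### Chain homotopies on chains -/

theorem smL_bd {X : Set E} {r : ℝ} {n : ℕ} {l : List E} (hl : l.length = n + 1)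
    (h : SmL X r l) : (bdL l : Ch ℝ E) ∈ Sp ℝ (fun l' => l'.length = n ∧ SmL X r l') := by
  refine Sp_mono (fun l' hl' => ⟨hl'.1, fun x hx => h.1 x (hl'.2 x hx), fun x hx y hy =>
    h.2 x (hl'.2 x hx) y (hl'.2 y hy)⟩) (bdL_cr' (k := ℝ) hl)

theorem bd_mem {X : Set E} {r : ℝ} {n : ℕ} {c : Ch ℝ E}
    (hc : c ∈ Sp ℝ (fun l => l.length = n + 1 ∧ SmL X r l)) :
    bd c ∈ Sp ℝ (fun l => l.length = n ∧ SmL X r l) :=
  map_mem bd (fun l hl => by rw [bd_single, one_smul]; exact smL_bd hl.1 hl.2) hc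

section

variable {Z : Set E} {Y : Set E'} {f g : E → E'} {d r : ℝ} {K : Ch ℝ E →ₗ[ℝ] Ch ℝ E'}

theorem K_mem' {n : ℕ} (hK : ∀ l, SmL Z d l → K (single l 1) ∈
    Sp ℝ (fun l' => l'.length = l.length + 1 ∧ SmL Y r l')) {c : Ch ℝ E}
    (hc : c ∈ Sp ℝ (fun l => l.length = n ∧ SmL Z d l)) :
    K c ∈ Sp ℝ (fun l => l.length = n + 1 ∧ SmL Y r l) :=
  map_mem K (fun l hl => by
    have := hK l hl.2
    rwa [hl.1] at this) hc

theorem K_hom {P : List E → Prop} (hP : ∀ l, P l → SmL Z d l)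
    (hK : ∀ l, SmL Z d l → bd (K (single l 1)) + K (bdL l) =
      single (l.map g) 1 - single (l.map f) 1) {c : Ch ℝ E} (hc : c ∈ Sp ℝ P) :
    bd (K c) + K (bd c) = mp g c - mp f c :=
  eq_of_mem (F := bd.comp K + K.comp bd) (G := mp g - mp f) (fun l hl => by
    simp only [LinearMap.add_apply, LinearMap.sub_apply, LinearMap.comp_apply, bd_single,
      one_smul, mp_single]
    exact hK l (hP l hl)) hc

end

theorem smL_mono {X Y : Set E} {r r' : ℝ} {l : List E} (h : SmL X r l) (hX : X ⊆ Y)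
    (hr : r ≤ r') : SmL Y r' l := h.mono hX hr

theorem sp_mono {X Y : Set E} {r r' : ℝ} {n : ℕ} {c : Ch ℝ E}
    (h : c ∈ Sp ℝ (fun l => l.length = n ∧ SmL X r l)) (hX : X ⊆ Y) (hr : r ≤ r') :
    c ∈ Sp ℝ (fun l => l.length = n ∧ SmL Y r' l) :=
  Sp_mono (fun l hl => ⟨hl.1, hl.2.mono hX hr⟩) h

theorem smL_map {X : Set E} {Y : Set E'} {f : E → E'} {d r : ℝ} (hf : MapsTo f X Y)
    (hd : ∀ w ∈ X, ∀ w' ∈ X, dist w w' < d → dist (f w) (f w') < r) {l : List E}
    (hl : SmL X d l) : SmL Y r (l.map f) := by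
  refine ⟨fun y hy => ?_, fun y hy y' hy' => ?_⟩
  · obtain ⟨x, hx, rfl⟩ := List.mem_map.1 hy
    exact hf (hl.1 x hx)
  · obtain ⟨x, hx, rfl⟩ := List.mem_map.1 hy
    obtain ⟨x', hx', rfl⟩ := List.mem_map.1 hy'
    exact hd x (hl.1 x hx) x' (hl.1 x' hx') (hl.2 x hx x' hx')

theorem sp_map {X : Set E} {Y : Set E'} {f : E → E'} {d r : ℝ} (hf : MapsTo f X Y)
    (hd : ∀ w ∈ X, ∀ w' ∈ X, dist w w' < d → dist (f w) (f w') < r) {n : ℕ} {c : Ch ℝ E}
    (hc : c ∈ Sp ℝ (fun l => l.length = n ∧ SmL X d l)) :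
    mp f c ∈ Sp ℝ (fun l => l.length = n ∧ SmL Y r l) :=
  map_mem (mp f) (fun l hl => by
    rw [mp_single]
    exact single_mem ⟨by rw [List.length_map, hl.1], smL_map hf hd hl.2⟩ _) hc

variable {π : E → M} {X : ℝ → Set E} {O : ℝ → Set E'} {c r0 s t T : ℝ}
  {φ : M → ℝ → E → E'} {ψ : M → ℝ → E' → E}

/-- small lists of a neighbourhood of the fibre -/
theorem nr_of_nbc {Y Z : Set E} {v : M} {ρ ε r : ℝ} (hY : Y ⊆ Z) (hρ : ρ < ε) (hr : r ≤ ε)
    {l : List E} (h : SmL (nbc π Y v ρ) r l) : Nr π Z ε v l := by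
  refine ⟨⟨fun x hx => hY (h.1 x hx).1, fun x hx y hy => (h.2 x hx y hy).trans_le hr⟩,
    fun x hx => ?_⟩
  rw [dist_comm]
  exact (h.1 x hx).2.trans_lt hρ

theorem nr_of_fbr {Y Z : Set E} {v : M} {ε r : ℝ} (hY : Y ⊆ Z) (hε : 0 < ε) (hr : r ≤ ε)
    {l : List E} (h : SmL (fbr π Y v) r l) : Nr π Z ε v l := by
  refine ⟨⟨fun x hx => hY (h.1 x hx).1, fun x hx y hy => (h.2 x hx y hy).trans_le hr⟩,
    fun x hx => ?_⟩
  rw [(h.1 x hx).2, dist_self]
  exact hε

theorem nbc_of_nr {Y : Set E} {v : M} {ρ δ : ℝ} (hδ : δ ≤ ρ) {l : List E}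
    (h : Nr π Y δ v l) : SmL (nbc π Y v ρ) δ l :=
  ⟨fun x hx => ⟨h.1.1 x hx, by rw [dist_comm]; exact ((h.2 x hx).le.trans hδ)⟩, h.1.2⟩

/-- **the cycle families** -/
theorem exists_Cy (U : FibU π X O c r0 φ ψ) (ht : 0 < t) (hT : t + 3 * c ≤ T) {ε : ℝ}
    (hε : 0 < ε) (q : ℕ) : ∃ δ > 0, δ ≤ ε ∧ ∀ (z : Ch ℝ E'),
      z ∈ Sp ℝ (fun l => l.length = q + 1 ∧ SmL (O t) δ l) → (∃ r, bd z = single [] r) →
      ∀ δ' > 0, δ' ≤ δ → Cy π (X T) ε δ' q fun v => mp (ψ v t) z := by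
  have hc := U.hc
  have hρ : 0 < min (ε / 2) r0 := lt_min (half_pos hε) U.hr
  set ρ := min (ε / 2) r0 with hρd
  have hρε : ρ < ε := (min_le_left _ _).trans_lt (half_lt_self hε)
  obtain ⟨d1, hd1, h1⟩ := V651.UH.chain' (k := ℝ) (hpsi U ht hρ.le (min_le_right _ _) hT) ε hε
  obtain ⟨d2, hd2, h2⟩ := (U.um' t ht).2 ε hε
  refine ⟨min (min d1 d2) ρ, lt_min (lt_min hd1 hd2) hρ,
    (min_le_right _ _).trans hρε.le, fun z hz ⟨r, hr⟩ δ' hδ' hδ'' => ?_⟩
  have hz1 := sp_mono hz subset_rfl ((min_le_left _ _).trans (min_le_left d1 d2))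
  have hz2 := sp_mono hz subset_rfl ((min_le_left _ _).trans (min_le_right d1 d2))
  refine ⟨fun v => ?_, fun v => ⟨r, ?_⟩, fun v v' hv => ?_⟩
  · have h3 := sp_map ((U.um' t ht).1 v) (h2 v) hz2
    exact Sp_mono (fun l hl => ⟨hl.1, nr_of_fbr (U.monoX (by linarith)) hε le_rfl hl.2⟩) h3
  · rw [bd_mp, hr, mp_single, List.map_nil]
  · have hv' : dist v v' ≤ ρ := (hv.trans_le hδ'').le.trans (min_le_right _ _)
    obtain ⟨K, K0, K1, K2⟩ := h1 ⟨(v, v'), hv'⟩
    have h3 := K_mem' K1 hz1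
    have h4 := K_hom (fun l hl => hl.2) K2 hz1
    have h5 : K (bd z) = 0 := by
      rw [hr, show (single [] r : Ch ℝ E') = r • single [] 1 by simp, map_smul, K0, smul_zero]
    rw [h5, add_zero] at h4
    exact ⟨K z, Sp_mono (fun l hl => ⟨hl.1, nr_of_nbc subset_rfl hρε le_rfl hl.2⟩) h3, h4⟩

theorem bdL_map (f : E → E') (l : List E) : (bdL (l.map f) : Ch ℝ E') = mp f (bdL l) := by
  have := bd_mp (k := ℝ) f (single l 1)
  simpa using this

theorem dl_lin (v : Ch ℝ E →ₗ[ℝ] ℝ) (l : List E) : dl (fun l => v (single l 1)) l = v (bdL l) :=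
  lin_ext_apply (f := ev fun l => v (single l 1)) (g := v) (fun l => by simp) (bdL l)

/-- the linear algebra of the lists of `O` between the scales `r1 < r`, finite index set -/
def LinF (O : Set E) (r1 r : ℝ) (q : ℕ) : Prop :=
  ∃ (A : Type) (_ : Fintype A) (z : A → Ch ℝ E) (v : A → Ch ℝ E →ₗ[ℝ] ℝ)
    (s : Ch ℝ E →ₗ[ℝ] Ch ℝ E),
    (∀ a, z a ∈ Sp ℝ (fun l => l.length = q + 1 ∧ SmL O r l) ∧ ∃ c, bd (z a) = single [] c) ∧
    (∀ a l, l.length = q + 2 → SmL O r1 l → v a (bdL l) = 0) ∧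
    s (single [] 1) = 0 ∧
    (∀ l, SmL O r1 l → s (single l 1) ∈
      Sp ℝ (fun l' => l'.length = l.length + 1 ∧ SmL O r l')) ∧
    ∀ l, l.length = q + 1 → SmL O r1 l →
      single l 1 = ∑ a, v a (single l 1) • z a + s (bdL l) + bd (s (single l 1))

/-- **kernel data exist** -/
theorem exists_KD_of (U : FibU π X O c r0 φ ψ) {q : ℕ}
    (hL : ∀ t r1 r, 0 < t → 0 < r1 → r1 < r → LinF (O t) r1 r q) (ht : 0 < t)
    (hT : t + 4 * c ≤ T) {ε : ℝ} (hε : 0 < ε) : ∃ δ > 0, δ ≤ ε ∧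
      ∃ (A : Type) (_ : Fintype A) (z : A → Ch ℝ E') (D : KD π (X T) (X t) ε δ q A),
        (∀ a v, D.ζ a v = mp (ψ v (t + c)) (z a)) ∧
        (∀ a, z a ∈ Sp ℝ (fun l => l.length = q + 1 ∧ SmL (O (t + c)) ε l)) ∧
        ∀ a, ∃ r, bd (z a) = single [] r := by
  have hc := U.hc
  have htc : 0 < t + c := by linarith
  have hρ : 0 < min (ε / 2) r0 := lt_min (half_pos hε) U.hr
  set ρ := min (ε / 2) r0 with hρd
  have hρε : ρ < ε := (min_le_left _ _).trans_lt (half_lt_self hε)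
  have hρ0 : ρ ≤ r0 := min_le_right _ _
  obtain ⟨δC, hδC, hCε, hCy⟩ := exists_Cy U htc (T := T) (by linarith) hε q
  obtain ⟨d2, hd2, h2⟩ := (U.um' (t + c) htc).2 ε hε
  have hr : 0 < min δC d2 := lt_min hδC hd2
  set r := min δC d2 with hrd
  obtain ⟨A, hA, z, va, s, hz, hva, hs0, hs1, hs2⟩ := hL (t + c) _ _ htc (half_pos hr)
    (half_lt_self hr)
  obtain ⟨d3, hd3, h3⟩ := V651.UH.chain' (k := ℝ) ((U.h2 t ht).pb
    (fun v : M => ((v, ⟨ρ, hρ0⟩) : M × {r : ℝ // r ≤ r0}))) ε hε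
  choose H H0 H1 H2 using h3
  obtain ⟨d4, hd4, h4⟩ := V651.UH.chain' (k := ℝ) (U.h3 t ht) (r / 2) (half_pos hr)
  choose G G0 G1 G2 using h4
  obtain ⟨d5, hd5, h5⟩ := (U.um t ht).2 (r / 2) (half_pos hr)
  have hδ : 0 < min (min (min d3 d4) (min d5 ρ)) δC :=
    lt_min (lt_min (lt_min hd3 hd4) (lt_min hd5 hρ)) hδC
  set δ := min (min (min d3 d4) (min d5 ρ)) δC with hδd
  have l3 : δ ≤ d3 := (min_le_left _ _).trans ((min_le_left _ _).trans (min_le_left _ _))
  have l4 : δ ≤ d4 := (min_le_left _ _).trans ((min_le_left _ _).trans (min_le_right _ _))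
  have l5 : δ ≤ d5 := (min_le_left _ _).trans ((min_le_right _ _).trans (min_le_left _ _))
  have l6 : δ ≤ ρ := (min_le_left _ _).trans ((min_le_right _ _).trans (min_le_right _ _))
  have l7 : δ ≤ δC := min_le_right _ _
  clear_value δ
  -- the image lists
  have hφ : ∀ (v : M) (l : List E), Nr π (X t) δ v l →
      SmL (O (t + c)) (r / 2) (l.map (φ v t)) := fun v l hl =>
    smL_map ((U.um t ht).1 v) (h5 v) ((nbc_of_nr (l6.trans hρ0) hl).mono subset_rfl l5)
  have hι : ∀ (v v' : M) (l : List E), Nr π (X t) δ v l → Nr π (X t) δ v' l →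
      SmL (nbc π (X t) v r0 ∩ nbc π (X t) v' r0) d4 l := fun v v' l hl hl' =>
    ⟨fun x hx => ⟨(nbc_of_nr (l6.trans hρ0) hl).1 x hx, (nbc_of_nr (l6.trans hρ0) hl').1 x hx⟩,
      fun x hx y hy => (hl.1.2 x hx y hy).trans_le l4⟩
  have hψ : ∀ (v : M) (n : ℕ) (y : Ch ℝ E'),
      y ∈ Sp ℝ (fun l => l.length = n ∧ SmL (O (t + c)) r l) →
      mp (ψ v (t + c)) y ∈ Sp ℝ (fun l => l.length = n ∧ Nr π (X T) ε v l) := fun v n y hy =>
    Sp_mono (fun l hl => ⟨hl.1, nr_of_fbr (U.monoX (by linarith)) hε le_rfl hl.2⟩)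
      (sp_map ((U.um' (t + c) htc).1 v) (h2 v) (sp_mono hy subset_rfl (min_le_right _ _)))
  refine ⟨δ, hδ, l7.trans hCε, A, hA, z, {
    ζ := fun a v => mp (ψ v (t + c)) (z a)
    ν := fun a v l => va a (single (l.map (φ v t)) 1)
    om := fun a v v' l => va a (G (v, v') (single l 1))
    K := fun v => (mp (ψ v (t + c))).comp (s.comp (mp (φ v t))) - H v
    cy := ?_
    ν_coc := ?_
    om_nil := ?_
    om_spec := ?_
    K_nil := ?_
    K_mem := ?_
    K_spec := ?_ }, fun a v => rfl, ?_, fun a => (hz a).2⟩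
  · intro a
    exact hCy (z a) (sp_mono (hz a).1 subset_rfl (min_le_left _ _)) (hz a).2 δ hδ l7
  · intro a v l hl hn
    have e1 : dl (fun l => va a (single (l.map (φ v t)) 1)) l = va a (bdL (l.map (φ v t))) := by
      rw [bdL_map]
      exact lin_ext_apply (f := ev fun l => va a (single (l.map (φ v t)) 1))
        (g := (va a).comp (mp (φ v t))) (fun l => by simp) (bdL l)
    rw [e1]
    exact hva a _ (by rw [List.length_map, hl]) (hφ v l hn)
  · intro a v v'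
    show va a (G (v, v') (single [] 1)) = 0
    rw [G0, map_zero]
  · intro a v v' l hl hd hn hn'
    have e1 : dl (fun l => va a (G (v', v) (single l 1))) l = va a (G (v', v) (bdL l)) :=
      lin_ext_apply (f := ev fun l => va a (G (v', v) (single l 1)))
        (g := (va a).comp (G (v', v))) (fun l => by simp) (bdL l)
    show va a (single (l.map (φ v t)) 1) - va a (single (l.map (φ v' t)) 1) =
      dl (fun l => va a (G (v', v) (single l 1))) l
    rw [e1, ← map_sub]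
    have e2 := G2 (v', v) l (hι v' v l hn' hn)
    have e3 := G1 (v', v) l (hι v' v l hn' hn)
    rw [hl] at e3
    have e4 : va a (bd (G (v', v) (single l 1))) = 0 := by
      have h6 : ∀ y ∈ Sp ℝ (fun l => l.length = q + 1 + 1 ∧ SmL (O (t + c)) (r / 2) l),
          (va a) (bd y) = 0 := fun y hy =>
        eq_of_mem (F := (va a).comp bd) (G := 0) (fun l hl => by
          simp only [LinearMap.comp_apply, bd_single, one_smul, LinearMap.zero_apply]
          exact hva a l hl.1 hl.2) hy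
      exact h6 _ e3
    have e5 : va a (single (l.map (φ v t)) 1 - single (l.map (φ v' t)) 1) =
        va a (bd (G (v', v) (single l 1)) + G (v', v) (bdL l)) := by rw [e2]
    rw [e5, map_add, e4, zero_add]
  · intro v
    simp only [LinearMap.sub_apply, LinearMap.comp_apply, mp_single, List.map_nil]
    rw [hs0, map_zero, H0, sub_zero]
  · intro v l hl
    simp only [LinearMap.sub_apply, LinearMap.comp_apply, mp_single]
    refine Submodule.sub_mem _ ?_ ?_
    · have e1 := hs1 _ (hφ v l hl)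
      rw [List.length_map] at e1
      exact hψ v _ _ e1
    · have e1 := H1 v l ((nbc_of_nr l6 hl).mono subset_rfl l3)
      exact Sp_mono (fun l' hl' => ⟨hl'.1, nr_of_nbc (U.monoX (by linarith)) hρε le_rfl hl'.2⟩) e1
  · intro v l hl hn
    have e1 := hs2 (l.map (φ v t)) (by rw [List.length_map, hl]) (hφ v l hn)
    have e2 := H2 v l ((nbc_of_nr l6 hn).mono subset_rfl l3)
    have e3 := congrArg (mp (ψ v (t + c))) e1
    rw [mp_single, map_add, map_add, map_sum, bdL_map, ← bd_mp] at e3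
    have e4 : (single (l.map (fun w => ψ v (t + c) (φ v t w))) 1 : Ch ℝ E) =
        single ((l.map (φ v t)).map (ψ v (t + c))) 1 := by rw [List.map_map]; rfl
    have e5 : (single l 1 : Ch ℝ E) = single ((l.map (φ v t)).map (ψ v (t + c))) 1 -
        (bd (H v (single l 1)) + H v (bdL l)) := by
      rw [e2, ← e4]
      simp only [List.map_id]
      abel
    simp only [LinearMap.sub_apply, LinearMap.comp_apply, mp_single, map_sub, map_smul] at e3 ⊢
    refine e5.trans ?_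
    rw [e3]
    abel
  · intro a
    exact sp_mono (hz a).1 subset_rfl ((min_le_left _ _).trans hCε)

end Vale.Agent.P216.V766
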