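import Vale.Agent.P216.H892.FibU

/-!
# The homotopies of the fibre families

`hpsi`: the inclusions `ψ v' t ~ ψ v t` of `O t` in a neighbourhood of the fibre over `v`, for
`dist v v' ≤ ρ`; all homotopies with scales independent of the points.
-/

set_option linter.all false

open Set

namespace Vale.Agent.P216.V766

open Sl PS E2L D907 H923E H892

variable {M E E' : Type} [PseudoMetricSpace M] [PseudoMetricSpace E] [PseudoMetricSpace E']
variable {π : E → M} {X : ℝ → Set E} {O : ℝ → Set E'} {c r0 t T : ℝ}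
  {φ : M → ℝ → E → E'} {ψ : M → ℝ → E' → E}

/-- pairs of points with distance at most `ρ` -/
abbrev Prs (M : Type) [PseudoMetricSpace M] (ρ : ℝ) : Type := {p : M × M // dist p.1 p.2 ≤ ρ}

theorem fbr_nbc {Y Z : Set E} {x : M} {ρ : ℝ} (hρ : 0 ≤ ρ) (h : Y ⊆ Z) :
    fbr π Y x ⊆ nbc π Z x ρ := fun w hw => ⟨h hw.1, by rw [hw.2, dist_self]; exact hρ⟩

theorem hpsi (U : FibU π X O c r0 φ ψ) (ht : 0 < t) {ρ : ℝ} (hρ : 0 ≤ ρ) (hρ0 : ρ ≤ r0)
    (hT : t + 3 * c ≤ T) :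
    UH (fun _ : Prs M ρ => O t) (fun j => nbc π (X T) j.1.1 ρ) (fun j => ψ j.1.2 t)
      fun j => ψ j.1.1 t := by
  have hc := U.hc
  have hX := U.monoX
  have hr := U.hr
  have e1 : t + c + 2 * c ≤ T := by linarith
  have e2 : t + c + c + c ≤ T := by linarith
  have e3 : t + 2 * c = t + c + c := by ring
  -- the embedding `ψ v' t`
  have hj : UM (fun _ : Prs M ρ => O t) (fun j => nbc π (X (t + c)) j.1.1 ρ)
      fun j => ψ j.1.2 t := by
    refine ((U.um' t ht).pb (fun j : Prs M ρ => j.1.2)).mono (fun _ => subset_rfl)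
      fun j w hw => ⟨hw.1, ?_⟩
    rw [hw.2]
    exact j.2
  have hj' : UM (fun _ : Prs M ρ => O t)
      (fun j => nbc π (X (t + c)) j.1.1 r0 ∩ nbc π (X (t + c)) j.1.2 r0)
      fun j => ψ j.1.2 t := by
    refine ((U.um' t ht).pb (fun j : Prs M ρ => j.1.2)).mono (fun _ => subset_rfl)
      fun j w hw => ⟨⟨hw.1, ?_⟩, ⟨hw.1, ?_⟩⟩
    · rw [hw.2]
      exact j.2.trans hρ0
    · rw [hw.2, dist_self]
      exact hr.le
  have hp : UM (fun _ : Prs M ρ => O (t + c + c)) (fun j => fbr π (X (t + c + c + c)) j.1.1)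
      fun j => ψ j.1.1 (t + c + c) :=
    (U.um' (t + c + c) (by linarith)).pb (fun j : Prs M ρ => j.1.1)
  have A := ((U.h2 (t + c) (by linarith)).pb
    (fun j : Prs M ρ => ((j.1.1, ⟨ρ, hρ0⟩) : M × {r : ℝ // r ≤ r0}))).comp_right hj
  have B := (((U.h3 (t + c) (by linarith)).pb (fun j : Prs M ρ => j.1)).comp_right hj').comp_left hp
  have C := U.h1 t ht
  rw [e3] at C
  have C' := (C.pb (fun j : Prs M ρ => j.1.2)).comp_left hp
  have D := U.h4' t ht (t + c + c) (by linarith)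
  have D' := D.pb (fun j : Prs M ρ => j.1.1)
  have sub : ∀ j : Prs M ρ, fbr π (X (t + c + c + c)) j.1.1 ⊆ nbc π (X T) j.1.1 ρ :=
    fun j => fbr_nbc hρ (hX e2)
  have A1 : UH (fun _ : Prs M ρ => O t) (fun j => nbc π (X T) j.1.1 ρ) (fun j => ψ j.1.2 t)
      (fun j w => ψ j.1.1 (t + c + c) (φ j.1.1 (t + c) (ψ j.1.2 t w))) :=
    A.mono (fun _ => subset_rfl) fun j w hw => ⟨hX e1 hw.1, hw.2⟩
  have B1 : UH (fun _ : Prs M ρ => O t) (fun j => nbc π (X T) j.1.1 ρ)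
      (fun j w => ψ j.1.1 (t + c + c) (φ j.1.1 (t + c) (ψ j.1.2 t w)))
      (fun j w => ψ j.1.1 (t + c + c) (φ j.1.2 (t + c) (ψ j.1.2 t w))) :=
    B.mono (fun _ => subset_rfl) sub
  have C1 : UH (fun _ : Prs M ρ => O t) (fun j => nbc π (X T) j.1.1 ρ)
      (fun j w => ψ j.1.1 (t + c + c) w)
      (fun j w => ψ j.1.1 (t + c + c) (φ j.1.2 (t + c) (ψ j.1.2 t w))) :=
    C'.mono (fun _ => subset_rfl) sub
  have D1 : UH (fun _ : Prs M ρ => O t) (fun j => nbc π (X T) j.1.1 ρ)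
      (fun j => ψ j.1.1 t) (fun j w => ψ j.1.1 (t + c + c) w) :=
    D'.mono (fun _ => subset_rfl) sub
  exact ((A1.trans B1).trans C1.symm).trans D1.symm

end Vale.Agent.P216.V766
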