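import Vale.Agent.P216.V1.Defs

/-!
# Cochains with values in a vector space

`LinD X r' Y r g q`: linear algebra data for the map of lists induced by `g`, in degree `q`:
`g = ∑ v_a ⊗ g(w_a) + s ∘ bd + bd ∘ s2`, with cocycles `v_a`, cycles `w_a`, `v_a (w_b) = δ`. Hence a
cocycle `f` of `(Y, r)` with values in any vector space satisfies
`f (l.map g) = ∑ v_a l • f (g w_a) + bl (f ∘ s) l`.
-/

set_option linter.unusedSectionVars false

open Set Finsupp

namespace Vale.Agent.P216.V766

open Sl PS V1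

noncomputable section

/-! ### Linear algebra -/

universe u0 u1 u2 u3 u4

theorem finsum_lc {k : Type*} [Field k] {A V : Type*} [AddCommGroup V] [Module k V] (f : A →₀ k)
    (g : A → V) : ∑ᶠ a, f a • g a = Finsupp.linearCombination k g f := by
  rw [finsum_eq_sum_of_support_subset (s := f.support), Finsupp.linearCombination_apply]
  · rfl
  · intro a ha
    simp only [Function.mem_support, ne_eq] at ha
    simp only [Finset.mem_coe, Finsupp.mem_support_iff, ne_eq]
    intro h
    rw [h, zero_smul] at ha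
    exact ha rfl

theorem lin_alg {k : Type u0} [Field k] {C0 : Type u1} {C1 : Type u2} {D1 : Type u3} {D2 : Type u4}
    [AddCommGroup C0] [Module k C0] [AddCommGroup C1] [Module k C1] [AddCommGroup D1] [Module k D1]
    [AddCommGroup D2] [Module k D2] (d1 : C1 →ₗ[k] C0) (i : C1 →ₗ[k] D1) (d2 : D2 →ₗ[k] D1)
    (B : Submodule k C1) (hB : B ≤ LinearMap.ker d1) (hi : ∀ b ∈ B, i b ∈ LinearMap.range d2) :
    ∃ (A : Type u2) (v : A → C1 →ₗ[k] k) (w : A → C1) (s : C0 →ₗ[k] D1) (s' : C1 →ₗ[k] D2),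
      (∀ a, ∀ b ∈ B, v a b = 0) ∧ (∀ c, {a | v a c ≠ 0}.Finite) ∧ (∀ a, d1 (w a) = 0) ∧
      (∀ a, v a (w a) = 1) ∧ (∀ a b, a ≠ b → v a (w b) = 0) ∧
      ∀ c, i c = ∑ᶠ a, v a c • i (w a) + s (d1 c) + d2 (s' c) := by
  classical
  set Z := LinearMap.ker d1 with hZ
  set K : Submodule k C1 := Z ⊓ (LinearMap.range d2).comap i with hK
  have hKZ : K ≤ Z := inf_le_left
  -- complements
  obtain ⟨Y, hY⟩ := Submodule.exists_isCompl Z
  obtain ⟨W', hW'⟩ := Submodule.exists_isCompl (K.comap Z.subtype)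
  -- projections
  set pZ : C1 →ₗ[k] Z := Submodule.projectionOnto Z Y hY with hpZ
  set pY : C1 →ₗ[k] Y := Submodule.projectionOnto Y Z hY.symm with hpY
  set pK : Z →ₗ[k] (K.comap Z.subtype) :=
    Submodule.projectionOnto (K.comap Z.subtype) W' hW' with hpK
  set pW : Z →ₗ[k] W' := Submodule.projectionOnto W' (K.comap Z.subtype) hW'.symm with hpW
  let bW := Module.Basis.ofVectorSpace k W'
  -- section of `d1` on `Y`
  have hdY : LinearMap.ker (d1.comp Y.subtype) = ⊥ := by
    rw [LinearMap.ker_eq_bot']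
    rintro ⟨y, hy⟩ h0
    have h1 : y ∈ Z ⊓ Y := ⟨h0, hy⟩
    rw [hY.inf_eq_bot] at h1
    exact Subtype.ext h1
  obtain ⟨σ, hσ⟩ := LinearMap.exists_leftInverse_of_injective _ hdY
  -- section of `d2`
  obtain ⟨τ, hτ⟩ := LinearMap.exists_rightInverse_of_surjective (d2.rangeRestrict)
    (LinearMap.range_rangeRestrict d2)
  have hiK : ∀ x : (K.comap Z.subtype), i (x : Z) ∈ LinearMap.range d2 := fun x => x.2.2
  let iK : (K.comap Z.subtype) →ₗ[k] LinearMap.range d2 :=
    LinearMap.codRestrict _ (i.comp (Z.subtype.comp (K.comap Z.subtype).subtype)) hiK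
  refine ⟨_, fun a => (bW.coord a).comp (pW.comp pZ), fun a => ((bW a : W') : Z),
    (i.comp Y.subtype).comp σ, τ.comp (iK.comp (pK.comp pZ)), ?_, ?_, ?_, ?_, ?_, ?_⟩
  · intro a b hb
    have h1 : pZ b = ⟨b, hB hb⟩ := by
      rw [hpZ]
      exact Submodule.projectionOnto_apply_left hY ⟨b, hB hb⟩
    have h2 : (⟨b, hB hb⟩ : Z) ∈ K.comap Z.subtype := ⟨hB hb, hi b hb⟩
    have h3 : pW (pZ b) = 0 := by
      rw [h1, hpW]
      exact Submodule.projectionOnto_apply_right hW'.symm ⟨_, h2⟩
    rw [LinearMap.comp_apply, LinearMap.comp_apply, h3, map_zero]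
  · intro c
    exact (bW.repr (pW (pZ c))).support.finite_toSet.subset fun a ha => by
      simpa using ha
  · intro a
    exact ((bW a : W') : Z).2
  · intro a
    have h1 : pZ (((bW a : W') : Z) : C1) = ((bW a : W') : Z) := by
      rw [hpZ]
      exact Submodule.projectionOnto_apply_left hY _
    have h2 : pW ((bW a : W') : Z) = bW a := by
      rw [hpW]
      exact Submodule.projectionOnto_apply_left hW'.symm _
    rw [LinearMap.comp_apply, LinearMap.comp_apply, h1, h2]
    simp
  · intro a b hab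
    have h1 : pZ (((bW b : W') : Z) : C1) = ((bW b : W') : Z) := by
      rw [hpZ]
      exact Submodule.projectionOnto_apply_left hY _
    have h2 : pW ((bW b : W') : Z) = bW b := by
      rw [hpW]
      exact Submodule.projectionOnto_apply_left hW'.symm _
    rw [LinearMap.comp_apply, LinearMap.comp_apply, h1, h2]
    simp [Module.Basis.coord_apply, Ne.symm hab]
  · intro c
    have e1 : ((pZ c : Z) : C1) + (pY c : C1) = c := by
      rw [hpZ, hpY]
      exact Submodule.projection_add_projection_eq_self hY c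
    have e2 : ((pK (pZ c) : K.comap Z.subtype) : Z) + ((pW (pZ c) : W') : Z) = pZ c := by
      rw [hpK, hpW]
      exact Submodule.projection_add_projection_eq_self hW' (pZ c)
    have e3 : i ((pW (pZ c) : W') : Z) =
        ∑ᶠ a, ((bW.coord a).comp (pW.comp pZ)) c • i (((bW a : W') : Z) : C1) := by
      rw [show (fun a => ((bW.coord a).comp (pW.comp pZ)) c • i (((bW a : W') : Z) : C1)) =
        fun a => (bW.repr (pW (pZ c))) a • i (((bW a : W') : Z) : C1) from rfl, finsum_lc]
      have h1 := congrArg (i.comp (Z.subtype.comp W'.subtype))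
        (bW.linearCombination_repr (pW (pZ c)))
      rw [Finsupp.apply_linearCombination] at h1
      exact h1.symm
    have e4 : ((i.comp Y.subtype).comp σ) (d1 c) = i (pY c : C1) := by
      have h1 : d1 c = (d1.comp Y.subtype) (pY c) := by
        conv_lhs => rw [← e1]
        rw [map_add, show d1 (pZ c : C1) = 0 from (pZ c).2, zero_add]
        rfl
      have h2 := LinearMap.congr_fun hσ (pY c)
      rw [h1]
      change i ((σ ((d1.comp Y.subtype) (pY c)) : Y) : C1) = _
      rw [show σ ((d1.comp Y.subtype) (pY c)) = pY c from h2]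
    have e5 : d2 ((τ.comp (iK.comp (pK.comp pZ))) c) =
        i (((pK (pZ c) : K.comap Z.subtype) : Z) : C1) := by
      have h2 := LinearMap.congr_fun hτ (iK (pK (pZ c)))
      have h3 := congrArg Subtype.val h2
      exact h3
    rw [e4, e5, ← e3]
    conv_lhs => rw [← e1, ← e2]
    rw [Submodule.coe_add, map_add, map_add]
    abel

/-! ### Lists -/

theorem lx {E V : Type*} [AddCommGroup V] [Module ℝ V] {f g : (List E →₀ ℝ) →ₗ[ℝ] V}
    (h : ∀ l, f (single l 1) = g (single l 1)) (c : List E →₀ ℝ) : f c = g c := by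
  have h1 : f = g := Finsupp.lhom_ext' fun l => LinearMap.ext_ring (h l)
  rw [h1]

theorem eq_on {E V : Type*} [AddCommGroup V] [Module ℝ V] {f g : (List E →₀ ℝ) →ₗ[ℝ] V}
    {P : List E → Prop} (h : ∀ l, P l → f (single l 1) = g (single l 1)) {c : List E →₀ ℝ}
    (hc : c ∈ Finsupp.supported ℝ ℝ {l | P l}) : f c = g c := by
  have h1 : Finsupp.supported ℝ ℝ {l | P l} ≤ LinearMap.eqLocus f g := by
    rw [Finsupp.supported_eq_span_single]
    refine Submodule.span_le.2 ?_
    rintro _ ⟨l, hl, rfl⟩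
    exact h l hl
  exact h1 hc

section ev

variable {E E' : Type} [PseudoMetricSpace E] [PseudoMetricSpace E'] {L : Type*} [AddCommGroup L]
  [Module ℝ L]

/-- evaluation of a function with values in a vector space on a chain -/
def evL (f : List E → L) : Ch ℝ E →ₗ[ℝ] L := Finsupp.linearCombination ℝ f

@[simp] theorem evL_single (f : List E → L) (l : List E) (r : ℝ) :
    evL f (single l r) = r • f l := by
  simp [evL, Finsupp.linearCombination_single]

theorem evL_cons (f : List E → L) (x : E) (c : Ch ℝ E) :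
    evL f (cons x c) = evL (fun l => f (x :: l)) c :=
  lx (f := (evL f).comp (cons x)) (g := evL (fun l => f (x :: l)))
    (fun l => by simp) c

theorem bl_eq_evL (f : List E → L) (l : List E) : bl f l = evL f (bdL l) := by
  induction l generalizing f with
  | nil => rw [bl_nil, bdL_nil, map_zero]
  | cons x l ih => rw [bl_cons, bdL_cons, map_sub, evL_cons, ih, evL_single, one_smul]

theorem evL_bl (f : List E → L) (c : Ch ℝ E) : evL (bl f) c = evL f (bd c) :=
  lx (f := evL (bl f)) (g := (evL f).comp bd) (fun l => by simp [bl_eq_evL]) c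

theorem evL_mp (f : List E' → L) (g : E → E') (c : Ch ℝ E) :
    evL f (mp g c) = evL (fun l => f (l.map g)) c :=
  lx (f := (evL f).comp (mp g)) (g := evL (fun l => f (l.map g))) (fun l => by simp) c

theorem evL_add (f g : List E → L) (c : Ch ℝ E) :
    evL (fun l => f l + g l) c = evL f c + evL g c :=
  lx (f := evL (fun l => f l + g l)) (g := evL f + evL g) (fun l => by simp) c

theorem evL_sub (f g : List E → L) (c : Ch ℝ E) :
    evL (fun l => f l - g l) c = evL f c - evL g c :=
  lx (f := evL (fun l => f l - g l)) (g := evL f - evL g) (fun l => by simp) c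

theorem evL_zero (c : Ch ℝ E) : evL (fun _ => (0 : L)) c = 0 :=
  lx (f := evL (fun _ => (0 : L))) (g := 0) (fun l => by simp) c

theorem evL_congr {f g : List E → L} {P : List E → Prop} (h : ∀ l, P l → f l = g l) {c : Ch ℝ E}
    (hc : c ∈ Sp ℝ P) : evL f c = evL g c :=
  eq_on (fun l hl => by rw [evL_single, evL_single, h l hl]) hc

theorem evL_eq_zero {f : List E → L} {P : List E → Prop} (h : ∀ l, P l → f l = 0) {c : Ch ℝ E}
    (hc : c ∈ Sp ℝ P) : evL f c = 0 := by
  rw [evL_congr h hc, evL_zero]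

theorem map_evL {L' : Type*} [AddCommGroup L'] [Module ℝ L'] (φ : L →ₗ[ℝ] L') (f : List E → L)
    (c : Ch ℝ E) : φ (evL f c) = evL (fun l => φ (f l)) c :=
  lx (f := φ.comp (evL f)) (g := evL (fun l => φ (f l))) (fun l => by simp) c

theorem evL_real (f : List E → ℝ) (c : Ch ℝ E) : evL f c = ev f c :=
  lx (f := evL f) (g := ev f) (fun l => by simp) c

theorem evL_smul_fun (f : List E → ℝ) (x : L) (c : Ch ℝ E) :
    evL (fun l => f l • x) c = ev f c • x :=
  lx (f := evL (fun l => f l • x)) (g := (ev f).smulRight x) (fun l => by simp) c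

end ev

variable {E E' : Type} [PseudoMetricSpace E] [PseudoMetricSpace E']

/-- small lists of length `n` -/
def SmN (X : Set E) (r : ℝ) (n : ℕ) (l : List E) : Prop := l.length = n ∧ SmL X r l

/-- linear algebra data of the map of small lists induced by `g` -/
structure LinD (X : Set E) (r' : ℝ) (Y : Set E') (r : ℝ) (g : E → E') (q : ℕ) where
  A : Type
  v : A → List E → ℝ
  w : A → Ch ℝ E
  s : List E → Ch ℝ E'
  s2 : List E → Ch ℝ E'
  w_mem : ∀ a, w a ∈ Sp ℝ (SmN X r' (q + 1))
  w_bd : ∀ a, q ≠ 0 → bd (w a) = 0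
  v_w : ∀ a, ev (v a) (w a) = 1
  v_w' : ∀ a b, a ≠ b → ev (v a) (w b) = 0
  v_coc : ∀ a l, SmN X r' (q + 2) l → dl (v a) l = 0
  v_fin : ∀ l, {a | v a l ≠ 0}.Finite
  v_zero : ∀ a l, ¬ SmN X r' (q + 1) l → v a l = 0
  s_mem : ∀ l, s l ∈ Sp ℝ (SmN Y r (q + 1))
  s_zero : q = 0 → ∀ l, s l = 0
  s2_mem : ∀ l, s2 l ∈ Sp ℝ (SmN Y r (q + 2))
  eq : ∀ l, SmN X r' (q + 1) l → single (l.map g) 1 =
    ∑ᶠ a, v a l • mp g (w a) + Finsupp.linearCombination ℝ s (bdL l) + bd (s2 l)

theorem bdL_sl {X : Set E} {r : ℝ} {n : ℕ} {l : List E} (h : SmN X r (n + 1) l) :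
    (bdL l : Ch ℝ E) ∈ Sp ℝ (SmN X r n) := by
  have h1 := bdL_cr' (k := ℝ) h.1
  refine Sp_mono (fun l' hl' => ⟨hl'.1, fun x hx => h.2.1 x (hl'.2 x hx), fun x hx y hy =>
    h.2.2 x (hl'.2 x hx) y (hl'.2 y hy)⟩) h1

theorem bd_sl {X : Set E} {r : ℝ} {n : ℕ} {c : Ch ℝ E} (h : c ∈ Sp ℝ (SmN X r (n + 1))) :
    bd c ∈ Sp ℝ (SmN X r n) :=
  map_mem bd (fun l hl => by rw [bd_single, one_smul]; exact bdL_sl hl) h

theorem mp_sl {X : Set E} {r' : ℝ} {Y : Set E'} {r : ℝ} {g : E → E'}
    (hg : ∀ l, SmL X r' l → SmL Y r (l.map g)) {n : ℕ} {c : Ch ℝ E}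
    (h : c ∈ Sp ℝ (SmN X r' n)) : mp g c ∈ Sp ℝ (SmN Y r n) :=
  map_mem (mp g) (fun l hl => by
    rw [mp_single]
    exact single_mem ⟨by rw [List.length_map, hl.1], hg l hl.2⟩ _) h

/-- restriction of chains to small lists -/
def rs (P : List E → Prop) : Ch ℝ E →ₗ[ℝ] Sp ℝ P := by
  classical exact Finsupp.restrictDom ℝ ℝ {l | P l}

theorem rs_coe {P : List E → Prop} (c : Sp ℝ P) : rs P c = c := by
  classical exact LinearMap.congr_fun (Finsupp.restrictDom_comp_subtype {l | P l}) c

theorem rs_of_not {P : List E → Prop} {l : List E} (h : ¬ P l) (r : ℝ) : rs P (single l r) = 0 := by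
  classical
  exact Subtype.ext (Finsupp.filter_single_of_neg _ h)

/-- **the linear algebra data exist** -/
theorem exists_linD (X : Set E) (r' : ℝ) (Y : Set E') (r : ℝ) (g : E → E')
    (hg : ∀ l, SmL X r' l → SmL Y r (l.map g)) (q : ℕ) : Nonempty (LinD X r' Y r g q) := by
  classical
  let d1 : Sp ℝ (SmN X r' (q + 1)) →ₗ[ℝ] Ch ℝ E :=
    if q = 0 then 0 else bd.comp (Sp ℝ (SmN X r' (q + 1))).subtype
  let i : Sp ℝ (SmN X r' (q + 1)) →ₗ[ℝ] Sp ℝ (SmN Y r (q + 1)) :=
    LinearMap.codRestrict _ ((mp g).comp (Sp ℝ (SmN X r' (q + 1))).subtype) fun c => mp_sl hg c.2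
  let d2 : Sp ℝ (SmN Y r (q + 2)) →ₗ[ℝ] Sp ℝ (SmN Y r (q + 1)) :=
    LinearMap.codRestrict _ (bd.comp (Sp ℝ (SmN Y r (q + 2))).subtype) fun c => bd_sl c.2
  let B : Submodule ℝ (Sp ℝ (SmN X r' (q + 1))) :=
    (Submodule.map bd (Sp ℝ (SmN X r' (q + 2)))).comap (Sp ℝ (SmN X r' (q + 1))).subtype
  have hB : B ≤ LinearMap.ker d1 := by
    rintro ⟨b, hb⟩ ⟨c, hc, h⟩
    change bd c = b at h
    rw [LinearMap.mem_ker]
    by_cases hq : q = 0
    · simp only [d1, if_pos hq, LinearMap.zero_apply]
    · simp only [d1, if_neg hq]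
      change bd b = 0
      rw [← h, bd_bd]
  have hi : ∀ b ∈ B, i b ∈ LinearMap.range d2 := by
    rintro ⟨b, hb⟩ ⟨c, hc, h⟩
    change bd c = b at h
    refine ⟨⟨mp g c, mp_sl hg hc⟩, Subtype.ext ?_⟩
    change bd (mp g c) = mp g b
    rw [bd_mp, h]
  have hmain := lin_alg (k := ℝ) (C0 := Ch ℝ E) (C1 := Sp ℝ (SmN X r' (q + 1)))
    (D1 := Sp ℝ (SmN Y r (q + 1))) (D2 := Sp ℝ (SmN Y r (q + 2))) d1 i d2 B hB hi
  obtain ⟨A, v, w, s, s', h1, h2, h3, h4, h5, h6⟩ := hmain
  have hev : ∀ a c, ev (fun l => v a (rs _ (single l 1))) c = v a (rs _ c) := fun a c =>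
    lx (f := ev (fun l => v a (rs _ (single l 1)))) (g := (v a).comp (rs _)) (fun l => by simp) c
  refine ⟨{
    A := A
    v := fun a l => v a (rs _ (single l 1))
    w := fun a => w a
    s := fun l => if q = 0 then 0 else s (single l 1)
    s2 := fun l => s' (rs _ (single l 1))
    w_mem := fun a => (w a).2
    w_bd := ?_
    v_w := ?_
    v_w' := ?_
    v_coc := ?_
    v_fin := ?_
    v_zero := ?_
    s_mem := ?_
    s_zero := ?_
    s2_mem := fun l => (s' _).2
    eq := ?_ }⟩
  · intro a hq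
    have := h3 a
    simp only [d1, if_neg hq] at this
    exact this
  · intro a
    rw [hev, rs_coe, h4]
  · intro a b hab
    rw [hev, rs_coe, h5 a b hab]
  · intro a l hl
    rw [dl, hev]
    refine h1 a _ ?_
    have h7 := bdL_sl hl
    refine ⟨single l 1, single_mem hl _, ?_⟩
    rw [bd_single, one_smul]
    have h8 := congrArg Subtype.val (rs_coe (P := SmN X r' (q + 1)) ⟨bdL l, h7⟩)
    exact h8.symm
  · exact fun l => h2 _
  · intro a l hl
    rw [rs_of_not hl, map_zero]
  · intro l
    by_cases hq : q = 0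
    · rw [if_pos hq]
      exact Submodule.zero_mem _
    · rw [if_neg hq]
      exact (s _).2
  · intro hq l
    rw [if_pos hq]
  · intro l hl
    have h7 := congrArg Subtype.val (h6 (⟨single l 1, single_mem hl _⟩ : Sp ℝ (SmN X r' (q + 1))))
    have h8 : rs (SmN X r' (q + 1)) (single l 1) = ⟨single l 1, single_mem hl _⟩ :=
      rs_coe (P := SmN X r' (q + 1)) ⟨single l 1, single_mem hl _⟩
    rw [h8]
    have h9 : ((i ⟨single l 1, single_mem hl _⟩ : Sp ℝ (SmN Y r (q + 1))) : Ch ℝ E') =
        single (l.map g) 1 := by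
      change mp g (single l 1) = _
      rw [mp_single]
    rw [← h9, h7, Submodule.coe_add, Submodule.coe_add]
    refine congrArg₂ (· + ·) (congrArg₂ (· + ·) ?_ ?_) rfl
    · have hf : (Function.support fun a => v a ⟨single l 1, single_mem hl _⟩ • i (w a)).Finite :=
        (h2 ⟨single l 1, single_mem hl _⟩).subset fun a ha hz => by
          have hz' : v a ⟨single l 1, single_mem hl _⟩ = 0 := hz
          exact ha (by
            change v a ⟨single l 1, single_mem hl _⟩ • i (w a) = 0
            rw [hz', zero_smul])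
      have h10 := AddMonoidHom.map_finsum
        ((Sp ℝ (SmN Y r (q + 1))).subtype : Sp ℝ (SmN Y r (q + 1)) →+ Ch ℝ E') hf
      exact h10
    · by_cases hq : q = 0
      · have h10 : d1 ⟨single l 1, single_mem hl _⟩ = 0 := by
          simp only [d1, if_pos hq, LinearMap.zero_apply]
        rw [h10, map_zero]
        simp only [if_pos hq]
        exact (evL_zero (L := Ch ℝ E') (bdL l)).symm
      · have h10 : d1 ⟨single l 1, single_mem hl _⟩ = bdL l := by
          simp only [d1, if_neg hq]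
          change bd (single l 1) = bdL l
          rw [bd_single, one_smul]
        rw [h10]
        simp only [if_neg hq]
        exact lx (f := (Sp ℝ (SmN Y r (q + 1))).subtype.comp s)
          (g := Finsupp.linearCombination ℝ (fun l => ((s (single l 1) :
            Sp ℝ (SmN Y r (q + 1))) : Ch ℝ E'))) (fun l => by simp) (bdL l)

namespace LinD

variable {X : Set E} {r' : ℝ} {Y : Set E'} {r : ℝ} {g : E → E'} {q : ℕ} (D : LinD X r' Y r g q)
  {L : Type*} [AddCommGroup L] [Module ℝ L]

/-- **(LIN)**: a cocycle with values in a vector space is, after restriction, the sum of its values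
on the cycles `w a` times the cocycles `v a`, up to an explicit coboundary. -/
theorem rep {f : List E' → L} (hf : ∀ l, SmN Y r (q + 2) l → bl f l = 0) {l : List E}
    (hl : SmN X r' (q + 1) l) : f (l.map g) =
      ∑ᶠ a, D.v a l • evL f (mp g (D.w a)) + bl (fun l' => evL f (D.s l')) l := by
  have h1 := congrArg (evL f) (D.eq l hl)
  have hfin : (Function.support fun a => D.v a l • mp g (D.w a)).Finite :=
    (D.v_fin l).subset fun a ha hz => ha (by
      change D.v a l • mp g (D.w a) = 0
      rw [show D.v a l = 0 from hz, zero_smul])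
  rw [evL_single, one_smul, map_add, map_add] at h1
  have h2 : evL f (∑ᶠ a, D.v a l • mp g (D.w a)) = ∑ᶠ a, D.v a l • evL f (mp g (D.w a)) := by
    have h3 := AddMonoidHom.map_finsum (evL f).toAddMonoidHom hfin
    refine h3.trans (finsum_congr fun a => ?_)
    exact map_smul (evL f) _ _
  have h4 : evL f (Finsupp.linearCombination ℝ D.s (bdL l)) =
      bl (fun l' => evL f (D.s l')) l := by
    rw [bl_eq_evL]
    exact lx (f := (evL f).comp (Finsupp.linearCombination ℝ D.s))
      (g := evL fun l' => evL f (D.s l')) (fun l => by simp) (bdL l)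
  have h5 : evL f (bd (D.s2 l)) = 0 := by
    rw [← evL_bl]
    exact evL_eq_zero hf (D.s2_mem l)
  rw [h1, h2, h4, h5, add_zero]

/-- the coefficients of a coboundary vanish -/
theorem coef_zero {f : List E' → L} {h : List E → L} (h0 : q = 0 → ∀ l, h l = 0)
    (hf : ∀ l, SmN X r' (q + 1) l → f (l.map g) = bl h l) (a : D.A) :
    evL f (mp g (D.w a)) = 0 := by
  rw [evL_mp, evL_congr hf (D.w_mem a), evL_bl]
  by_cases hq : q = 0
  · rw [show h = fun _ => 0 from funext (h0 hq), evL_zero]
  · rw [D.w_bd a hq, map_zero]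

end LinD

end

end Vale.Agent.P216.V766
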